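import Mathlib
import Vale.Agent.P032.Six.Star

/-!
The statements of this file are now in `Vale/Agent/P032/Six/Star.lean`.
-/
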